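import Mathlib

/-!
# P159, T1, row PHI : coarse partition of unity on `ZMod N × ZMod N`, `N = n * l`

Tensor profile with plateaus of half width `r` (`2 r < l`) around the coarse nodes and linear
ramps of length `l - 2 r` between them.
-/

set_option linter.unusedSectionVars false
set_option linter.unusedVariables false

open Finset

namespace Vale.Agent.P159.TM.H365

noncomputable section

/-! ## the profile -/

/-- the ramp -/
def th (l r k : ℕ) : ℝ := max 0 (min 1 (((k : ℝ) - r) / ((l : ℝ) - 2 * r)))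

lemma ramp_pos {l r : ℕ} (hr : 2 * r < l) : (0 : ℝ) < (l : ℝ) - 2 * r := by
  have : ((2 * r : ℕ) : ℝ) < l := by exact_mod_cast hr
  push_cast at this
  linarith

lemma th_nonneg (l r k : ℕ) : 0 ≤ th l r k := le_max_left _ _

lemma th_le_one (l r k : ℕ) : th l r k ≤ 1 := max_le zero_le_one (min_le_left _ _)

lemma th_zero_of_le {l r k : ℕ} (hr : 2 * r < l) (hk : k ≤ r) : th l r k = 0 := by
  unfold th
  have h := ramp_pos hr
  have hk' : (k : ℝ) ≤ r := by exact_mod_cast hk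
  have : ((k : ℝ) - r) / ((l : ℝ) - 2 * r) ≤ 0 := div_nonpos_of_nonpos_of_nonneg (by linarith) h.le
  exact max_eq_left ((min_le_right _ _).trans this)

lemma th_one_of_le {l r k : ℕ} (hr : 2 * r < l) (hk : l ≤ k + r) : th l r k = 1 := by
  unfold th
  have h := ramp_pos hr
  have hk' : (l : ℝ) ≤ k + r := by exact_mod_cast hk
  have : 1 ≤ ((k : ℝ) - r) / ((l : ℝ) - 2 * r) := by
    rw [le_div_iff₀ h]
    linarith
  rw [min_eq_left this]
  exact max_eq_right zero_le_one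

lemma th_mono {l r k k' : ℕ} (hr : 2 * r < l) (hk : k ≤ k') : th l r k ≤ th l r k' := by
  unfold th
  have h := ramp_pos hr
  have hk' : (k : ℝ) ≤ k' := by exact_mod_cast hk
  refine max_le_max le_rfl (min_le_min le_rfl ?_)
  gcongr

lemma th_step_nonneg {l r : ℕ} (hr : 2 * r < l) (k : ℕ) : 0 ≤ th l r (k + 1) - th l r k := by
  have := th_mono (l := l) (r := r) hr (Nat.le_succ k)
  simpa using sub_nonneg.2 this

lemma th_step_le {l r : ℕ} (hr : 2 * r < l) (k : ℕ) :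
    th l r (k + 1) - th l r k ≤ 1 / ((l : ℝ) - 2 * r) := by
  have h := ramp_pos hr
  unfold th
  set a : ℝ := ((k : ℝ) - r) / ((l : ℝ) - 2 * r) with ha
  have hb : (((k + 1 : ℕ) : ℝ) - r) / ((l : ℝ) - 2 * r) = a + 1 / ((l : ℝ) - 2 * r) := by
    rw [ha]
    push_cast
    ring
  rw [hb]
  have hc : 0 ≤ 1 / ((l : ℝ) - 2 * r) := by positivity
  have h1 : min 1 (a + 1 / ((l : ℝ) - 2 * r)) ≤ min 1 a + 1 / ((l : ℝ) - 2 * r) := by
    rcases le_total 1 a with h2 | h2
    · rw [min_eq_left h2]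
      exact (min_le_left _ _).trans (by linarith)
    · rw [min_eq_right h2]
      exact min_le_right _ _
  have h2 : max 0 (min 1 (a + 1 / ((l : ℝ) - 2 * r))) ≤ max 0 (min 1 a) + 1 / ((l : ℝ) - 2 * r) := by
    refine max_le (by positivity) (h1.trans ?_)
    linarith [le_max_right 0 (min 1 a)]
  linarith

lemma th_sum {l r : ℕ} (hr : 2 * r < l) :
    ∑ k ∈ range l, (th l r (k + 1) - th l r k) = 1 := by
  rw [Finset.sum_range_sub]
  rw [th_one_of_le hr (by omega), th_zero_of_le hr (by omega)]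
  ring

lemma th_pow_sum {l r : ℕ} (hr : 2 * r < l) (p : ℕ) (hp : 1 ≤ p) :
    ∑ k ∈ range l, |th l r (k + 1) - th l r k| ^ p ≤ 1 / ((l : ℝ) - 2 * r) ^ (p - 1) := by
  obtain ⟨q, rfl⟩ : ∃ q, p = q + 1 := ⟨p - 1, by omega⟩
  have h := ramp_pos hr
  calc ∑ k ∈ range l, |th l r (k + 1) - th l r k| ^ (q + 1)
      ≤ ∑ k ∈ range l, (1 / ((l : ℝ) - 2 * r)) ^ q * (th l r (k + 1) - th l r k) := by
        refine Finset.sum_le_sum fun k _ => ?_
        rw [abs_of_nonneg (th_step_nonneg hr k), pow_succ]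
        exact mul_le_mul_of_nonneg_right
          (pow_le_pow_left₀ (th_step_nonneg hr k) (th_step_le hr k) q) (th_step_nonneg hr k)
    _ = (1 / ((l : ℝ) - 2 * r)) ^ q := by
        rw [← Finset.mul_sum, th_sum hr, mul_one]
    _ = 1 / ((l : ℝ) - 2 * r) ^ (q + 1 - 1) := by
        rw [one_div, inv_pow, Nat.add_sub_cancel, one_div]

/-! ## one dimension -/

variable {N n l r : ℕ} [NeZero N] [NeZero n]

/-- coarse coordinate -/
def qq (l : ℕ) (x : ZMod N) : ZMod n := ((x.val / l : ℕ) : ZMod n)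

/-- remainder -/
def rr (l : ℕ) (x : ZMod N) : ℕ := x.val % l

lemma l_pos (hr : 2 * r < l) : 0 < l := by omega

lemma div_lt (hN : N = n * l) (hl : 0 < l) (x : ZMod N) : x.val / l < n := by
  have := ZMod.val_lt x
  rw [Nat.div_lt_iff_lt_mul hl]
  omega

lemma qq_val (hN : N = n * l) (hl : 0 < l) (x : ZMod N) :
    (qq (n := n) l x).val = x.val / l := by
  unfold qq
  rw [ZMod.val_natCast, Nat.mod_eq_of_lt (div_lt hN hl x)]

lemma rr_lt (hl : 0 < l) (x : ZMod N) : rr l x < l := Nat.mod_lt _ hl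

/-- the point with coarse coordinate `q` and remainder `k` -/
def pt (N : ℕ) {n : ℕ} (l : ℕ) (q : ZMod n) (k : ℕ) : ZMod N := ((l * q.val + k : ℕ) : ZMod N)

lemma pt_val (hN : N = n * l) (q : ZMod n) {k : ℕ} (hk : k < l) :
    (pt N l q k).val = l * q.val + k := by
  unfold pt
  rw [ZMod.val_natCast, Nat.mod_eq_of_lt]
  have h1 : q.val + 1 ≤ n := ZMod.val_lt q
  calc l * q.val + k < l * q.val + l := by omega
    _ = l * (q.val + 1) := by ring
    _ ≤ l * n := Nat.mul_le_mul_left _ h1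
    _ = N := by rw [hN]; ring

lemma qq_pt (hN : N = n * l) (q : ZMod n) {k : ℕ} (hk : k < l) : qq (n := n) l (pt N l q k) = q := by
  unfold qq
  rw [pt_val hN q hk]
  have hl : 0 < l := by omega
  rw [Nat.mul_add_div hl, Nat.div_eq_of_lt hk, add_zero, ZMod.natCast_zmod_val]

lemma rr_pt (hN : N = n * l) (q : ZMod n) {k : ℕ} (hk : k < l) : rr l (pt N l q k) = k := by
  unfold rr
  rw [pt_val hN q hk, Nat.mul_add_mod, Nat.mod_eq_of_lt hk]

lemma pt_qq (hN : N = n * l) (hl : 0 < l) (x : ZMod N) : pt N l (qq (n := n) l x) (rr l x) = x := by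
  unfold pt
  rw [qq_val hN hl, rr, Nat.div_add_mod, ZMod.natCast_zmod_val]

lemma sum_qr (hN : N = n * l) (hl : 0 < l) {M : Type*} [AddCommMonoid M] (F : ZMod n → ℕ → M) :
    ∑ x : ZMod N, F (qq l x) (rr l x) = ∑ q : ZMod n, ∑ k ∈ range l, F q k := by
  rw [← Finset.sum_product']
  refine Finset.sum_bij' (fun x _ => (qq l x, rr l x)) (fun p _ => pt N l p.1 p.2) ?_ ?_ ?_ ?_ ?_
  · intro x _
    simp [rr_lt hl x]
  · intro p _
    exact Finset.mem_univ _
  · intro x _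
    exact pt_qq hN hl x
  · rintro ⟨q, k⟩ h
    simp only [Finset.mem_product, Finset.mem_univ, true_and, Finset.mem_range] at h
    exact Prod.ext (qq_pt hN q h) (rr_pt hN q h)
  · intro x _
    rfl

lemma step_lt (hN : N = n * l) (hl : 0 < l) (x : ZMod N) (h : rr l x + 1 < l) :
    qq (n := n) l (x + 1) = qq l x ∧ rr l (x + 1) = rr l x + 1 := by
  have hx : x + 1 = pt N l (qq (n := n) l x) (rr l x + 1) := by
    conv_lhs => rw [← pt_qq hN hl x]
    unfold pt
    push_cast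
    ring
  rw [hx]
  exact ⟨qq_pt hN _ h, rr_pt hN _ h⟩

lemma pt_succ (hN : N = n * l) (q : ZMod n) : pt N l (q + 1) 0 = pt N l q l := by
  have hq : (q + 1).val = (q.val + 1) % n := by
    have : q + 1 = ((q.val + 1 : ℕ) : ZMod n) := by
      push_cast
      rw [ZMod.natCast_zmod_val]
    rw [this, ZMod.val_natCast]
  unfold pt
  rw [hq, add_zero, ← Nat.mul_mod_mul_left]
  have h2 : l * n = N := by rw [hN, mul_comm]
  rw [h2, ZMod.natCast_mod]
  congr 1

lemma step_eq (hN : N = n * l) (hl : 0 < l) (x : ZMod N) (h : rr l x + 1 = l) :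
    qq (n := n) l (x + 1) = qq l x + 1 ∧ rr l (x + 1) = 0 := by
  have hx : x + 1 = pt N l (qq (n := n) l x + 1) 0 := by
    rw [pt_succ hN]
    conv_lhs => rw [← pt_qq hN hl x]
    unfold pt
    rw [← Nat.cast_one (R := ZMod N), ← Nat.cast_add, add_assoc, h]
  rw [hx]
  exact ⟨qq_pt hN _ hl, rr_pt hN _ hl⟩

/-- one dimensional interpolation -/
def A1 (l r : ℕ) (g : ZMod n → ℝ) (x : ZMod N) : ℝ :=
  (1 - th l r (rr l x)) * g (qq l x) + th l r (rr l x) * g (qq l x + 1)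

lemma A1_succ (hN : N = n * l) (hr : 2 * r < l) (g : ZMod n → ℝ) (x : ZMod N) :
    A1 l r g (x + 1) = (1 - th l r (rr l x + 1)) * g (qq l x) + th l r (rr l x + 1) * g (qq l x + 1) := by
  have hl := l_pos hr
  have h0 := rr_lt hl x
  rcases Nat.lt_or_ge (rr l x + 1) l with h | h
  · obtain ⟨h1, h2⟩ := step_lt hN hl x h
    unfold A1
    rw [h1, h2]
  · have h' : rr l x + 1 = l := by omega
    obtain ⟨h1, h2⟩ := step_eq hN hl x h'
    unfold A1
    rw [h1, h2, h', th_zero_of_le hr (Nat.zero_le r), th_one_of_le hr (by omega)]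
    ring

lemma A1_step (hN : N = n * l) (hr : 2 * r < l) (g : ZMod n → ℝ) (x : ZMod N) :
    A1 l r g (x + 1) - A1 l r g x =
      (th l r (rr l x + 1) - th l r (rr l x)) * (g (qq l x + 1) - g (qq l x)) := by
  rw [A1_succ hN hr]
  unfold A1
  ring

lemma A1_const (c : ℝ) (x : ZMod N) : A1 l r (fun _ : ZMod n => c) x = c := by
  unfold A1
  ring

lemma A1_mono {g g' : ZMod n → ℝ} (x : ZMod N) (h : ∀ q, g q ≤ g' q) : A1 l r g x ≤ A1 l r g' x := by
  unfold A1
  have h1 := th_nonneg l r (rr l x)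
  have h2 := th_le_one l r (rr l x)
  have := mul_le_mul_of_nonneg_left (h (qq l x)) (by linarith : 0 ≤ 1 - th l r (rr l x))
  have := mul_le_mul_of_nonneg_left (h (qq l x + 1)) h1
  linarith

lemma A1_nonneg {g : ZMod n → ℝ} (x : ZMod N) (h : ∀ q, 0 ≤ g q) : 0 ≤ A1 l r g x := by
  have := A1_mono (l := l) (r := r) (g := fun _ => 0) (g' := g) x h
  rwa [A1_const] at this

lemma A1_add (g g' : ZMod n → ℝ) (x : ZMod N) :
    A1 l r (fun q => g q + g' q) x = A1 l r g x + A1 l r g' x := by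
  unfold A1
  ring

lemma A1_sub (g g' : ZMod n → ℝ) (x : ZMod N) :
    A1 l r (fun q => g q - g' q) x = A1 l r g x - A1 l r g' x := by
  unfold A1
  ring

lemma A1_smul (c : ℝ) (g : ZMod n → ℝ) (x : ZMod N) :
    A1 l r (fun q => c * g q) x = c * A1 l r g x := by
  unfold A1
  ring

lemma A1_mul_const (c : ℝ) (g : ZMod n → ℝ) (x : ZMod N) :
    A1 l r (fun q => g q * c) x = A1 l r g x * c := by
  unfold A1
  ring

/-- convexity of `|·| ^ p` for one convex combination -/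
lemma abs_pow_convex (p : ℕ) (t a b : ℝ) (h0 : 0 ≤ t) (h1 : t ≤ 1) :
    |(1 - t) * a + t * b| ^ p ≤ (1 - t) * |a| ^ p + t * |b| ^ p := by
  have h2 : |(1 - t) * a + t * b| ≤ (1 - t) * |a| + t * |b| := by
    refine (abs_add_le _ _).trans ?_
    rw [abs_mul, abs_mul, abs_of_nonneg h0, abs_of_nonneg (by linarith : 0 ≤ 1 - t)]
  refine (pow_le_pow_left₀ (abs_nonneg _) h2 p).trans ?_
  have h3 := (convexOn_pow (𝕜 := ℝ) p).2 (abs_nonneg a : |a| ∈ Set.Ici (0 : ℝ))
    (abs_nonneg b : |b| ∈ Set.Ici (0 : ℝ)) (by linarith : 0 ≤ 1 - t) h0 (by ring)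
  simpa [smul_eq_mul] using h3

lemma A1_pow_le (p : ℕ) (g : ZMod n → ℝ) (x : ZMod N) :
    |A1 l r g x| ^ p ≤ A1 l r (fun q => |g q| ^ p) x :=
  abs_pow_convex p _ _ _ (th_nonneg _ _ _) (th_le_one _ _ _)

lemma A1_sum (hN : N = n * l) (hr : 2 * r < l) (g : ZMod n → ℝ) :
    ∑ x : ZMod N, A1 l r g x = l * ∑ q, g q := by
  have hl := l_pos hr
  have h1 : ∑ x : ZMod N, A1 l r g x =
      ∑ q : ZMod n, ∑ k ∈ range l, ((1 - th l r k) * g q + th l r k * g (q + 1)) :=
    sum_qr hN hl (fun q k => (1 - th l r k) * g q + th l r k * g (q + 1))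
  rw [h1]
  have h2 : ∀ q : ZMod n, ∑ k ∈ range l, ((1 - th l r k) * g q + th l r k * g (q + 1)) =
      (l - ∑ k ∈ range l, th l r k) * g q + (∑ k ∈ range l, th l r k) * g (q + 1) := by
    intro q
    rw [Finset.sum_add_distrib, ← Finset.sum_mul, ← Finset.sum_mul, Finset.sum_sub_distrib]
    simp
  simp only [h2]
  rw [Finset.sum_add_distrib, ← Finset.mul_sum, ← Finset.mul_sum]
  have h3 : ∑ q : ZMod n, g (q + 1) = ∑ q, g q := Equiv.sum_comp (Equiv.addRight (1 : ZMod n)) g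
  rw [h3]
  ring

lemma A1_pow_grad (hN : N = n * l) (hr : 2 * r < l) (p : ℕ) (hp : 1 ≤ p) (g : ZMod n → ℝ) :
    ∑ x : ZMod N, |A1 l r g (x + 1) - A1 l r g x| ^ p ≤
      1 / ((l : ℝ) - 2 * r) ^ (p - 1) * ∑ q, |g (q + 1) - g q| ^ p := by
  have hl := l_pos hr
  have h1 : ∑ x : ZMod N, |A1 l r g (x + 1) - A1 l r g x| ^ p =
      ∑ q : ZMod n, ∑ k ∈ range l, |th l r (k + 1) - th l r k| ^ p * |g (q + 1) - g q| ^ p := by
    rw [← sum_qr hN hl (fun q k => |th l r (k + 1) - th l r k| ^ p * |g (q + 1) - g q| ^ p)]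
    refine Finset.sum_congr rfl fun x _ => ?_
    rw [A1_step hN hr, abs_mul, mul_pow]
  rw [h1, Finset.mul_sum]
  refine Finset.sum_le_sum fun q _ => ?_
  rw [← Finset.sum_mul]
  exact mul_le_mul_of_nonneg_right (th_pow_sum hr p hp) (by positivity)

lemma A1_nn_le (hN : N = n * l) (hr : 2 * r < l) {M : ℝ} (g : ZMod n → ℝ) (x : ZMod N)
    (h : |g (qq l x + 1) - g (qq l x)| ≤ M) :
    |A1 l r g (x + 1) - A1 l r g x| ≤ M / ((l : ℝ) - 2 * r) := by
  rw [A1_step hN hr, abs_mul, abs_of_nonneg (th_step_nonneg hr _)]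
  have h1 := th_step_le (l := l) (r := r) hr (rr l x)
  have h2 := ramp_pos hr
  calc _ ≤ 1 / ((l : ℝ) - 2 * r) * M := mul_le_mul h1 h (abs_nonneg _) (by positivity)
    _ = _ := by ring

/-- coarse node -/
def node (N : ℕ) {n : ℕ} (l : ℕ) (q : ZMod n) : ZMod N := ((l * q.val : ℕ) : ZMod N)

lemma node_eq_pt (q : ZMod n) : node N l q = pt N l q 0 := by
  unfold node pt
  rw [add_zero]

lemma node_add_nat (q : ZMod n) (k : ℕ) : node N l q + (k : ZMod N) = pt N l q k := by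
  unfold node pt
  push_cast
  ring

lemma node_succ (hN : N = n * l) (q : ZMod n) : node N l (q + 1) = node N l q + (l : ZMod N) := by
  rw [node_add_nat, node_eq_pt, pt_succ hN]

/-- on the plateau the interpolation is the value at the node -/
lemma A1_node (hN : N = n * l) (hr : 2 * r < l) (g : ZMod n → ℝ) (q : ZMod n) {k : ℤ}
    (hk : |k| ≤ r) : A1 l r g (node N l q + (k : ZMod N)) = g q := by
  have hl := l_pos hr
  rw [abs_le] at hk
  rcases le_or_gt 0 k with h0 | h0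
  · obtain ⟨j, rfl⟩ := Int.eq_ofNat_of_zero_le h0
    have hj : j ≤ r := by exact_mod_cast hk.2
    have hx : node N l q + (((j : ℕ) : ℤ) : ZMod N) = pt N l q j := by
      rw [← node_add_nat]
      push_cast
      rfl
    unfold A1
    rw [hx, rr_pt hN q (by omega), qq_pt hN q (by omega), th_zero_of_le hr hj]
    ring
  · obtain ⟨j, hj⟩ := Int.eq_ofNat_of_zero_le (by omega : 0 ≤ -k)
    have hj1 : j ≤ r := by omega
    have hj0 : 0 < j := by omega
    have hx : node N l q + (k : ZMod N) = pt N l (q - 1) (l - j) := by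
      have h1 : node N l q = node N l (q - 1) + (l : ZMod N) := by
        rw [← node_succ hN, sub_add_cancel]
      have h2 : k = -(j : ℤ) := by omega
      rw [h1, h2, ← node_add_nat, Nat.cast_sub (by omega : j ≤ l)]
      push_cast
      ring
    unfold A1
    rw [hx, rr_pt hN _ (by omega), qq_pt hN _ (by omega), th_one_of_le hr (by omega)]
    rw [sub_add_cancel]
    ring

/-! ## two dimensions -/

/-- one dimensional hat -/
def phi1 (l r : ℕ) (q : ZMod n) (x : ZMod N) : ℝ := A1 l r (Pi.single q 1) x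

lemma A1_eq_sum (g : ZMod n → ℝ) (x : ZMod N) : A1 l r g x = ∑ q, g q * phi1 l r q x := by
  unfold phi1 A1
  simp only [mul_add]
  rw [Finset.sum_add_distrib]
  congr 1
  · rw [Finset.sum_eq_single (qq l x)]
    · rw [Pi.single_eq_same]
      ring
    · intro b _ hb
      rw [Pi.single_eq_of_ne (Ne.symm hb)]
      ring
    · intro h
      exact absurd (Finset.mem_univ _) h
  · rw [Finset.sum_eq_single (qq l x + 1)]
    · rw [Pi.single_eq_same]
      ring
    · intro b _ hb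
      rw [Pi.single_eq_of_ne (Ne.symm hb)]
      ring
    · intro h
      exact absurd (Finset.mem_univ _) h

lemma phi1_nonneg (q : ZMod n) (x : ZMod N) : 0 ≤ phi1 l r q x := by
  refine A1_nonneg x fun q' => ?_
  by_cases h : q' = q
  · rw [h, Pi.single_eq_same]
    exact zero_le_one
  · rw [Pi.single_eq_of_ne h]

lemma phi1_sum (x : ZMod N) : ∑ q : ZMod n, phi1 l r q x = 1 := by
  have := A1_eq_sum (l := l) (r := r) (fun _ : ZMod n => (1 : ℝ)) x
  rw [A1_const] at this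
  rw [this]
  simp

lemma phi1_sum_x (hN : N = n * l) (hr : 2 * r < l) (q : ZMod n) :
    ∑ x : ZMod N, phi1 l r q x = l := by
  unfold phi1
  rw [A1_sum hN hr]
  simp

/-- the coarse partition of unity -/
def phi (l r : ℕ) (u : ZMod n × ZMod n) (x : ZMod N × ZMod N) : ℝ :=
  phi1 l r u.1 x.1 * phi1 l r u.2 x.2

/-- the coarse field -/
def AA (l r : ℕ) (G : ZMod n × ZMod n → ℝ) (x : ZMod N × ZMod N) : ℝ := ∑ u, G u * phi l r u x

lemma AA_eq (G : ZMod n × ZMod n → ℝ) (x : ZMod N × ZMod N) :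
    AA l r G x = A1 l r (fun q1 => A1 l r (fun q2 => G (q1, q2)) x.2) x.1 := by
  unfold AA phi
  rw [Fintype.sum_prod_type, A1_eq_sum]
  refine Finset.sum_congr rfl fun q1 _ => ?_
  rw [A1_eq_sum, Finset.sum_mul]
  refine Finset.sum_congr rfl fun q2 _ => ?_
  ring

lemma AA_eq' (G : ZMod n × ZMod n → ℝ) (x : ZMod N × ZMod N) :
    AA l r G x = A1 l r (fun q2 => A1 l r (fun q1 => G (q1, q2)) x.1) x.2 := by
  unfold AA phi
  rw [Fintype.sum_prod_type_right, A1_eq_sum]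
  refine Finset.sum_congr rfl fun q2 _ => ?_
  rw [A1_eq_sum, Finset.sum_mul]
  refine Finset.sum_congr rfl fun q1 _ => ?_
  ring

lemma phi_nonneg (u : ZMod n × ZMod n) (x : ZMod N × ZMod N) : 0 ≤ phi l r u x :=
  mul_nonneg (phi1_nonneg _ _) (phi1_nonneg _ _)

lemma sum_phi (x : ZMod N × ZMod N) : ∑ u : ZMod n × ZMod n, phi l r u x = 1 := by
  unfold phi
  rw [Fintype.sum_prod_type]
  simp only [← Finset.mul_sum, phi1_sum, mul_one]

lemma phi_le_one (u : ZMod n × ZMod n) (x : ZMod N × ZMod N) : phi l r u x ≤ 1 := by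
  rw [← sum_phi (l := l) (r := r) (n := n) x]
  exact Finset.single_le_sum (fun v _ => phi_nonneg v x) (Finset.mem_univ u)

lemma sum_phi_x (hN : N = n * l) (hr : 2 * r < l) (u : ZMod n × ZMod n) :
    ∑ x : ZMod N × ZMod N, phi l r u x = (l : ℝ) ^ 2 := by
  unfold phi
  rw [Fintype.sum_prod_type]
  simp only [← Finset.mul_sum, phi1_sum_x hN hr, ← Finset.sum_mul]
  ring

lemma AA_const (c : ℝ) (x : ZMod N × ZMod N) : AA l r (fun _ : ZMod n × ZMod n => c) x = c := by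
  unfold AA
  rw [← Finset.mul_sum, sum_phi, mul_one]

lemma AA_add (G G' : ZMod n × ZMod n → ℝ) (x : ZMod N × ZMod N) :
    AA l r (fun u => G u + G' u) x = AA l r G x + AA l r G' x := by
  unfold AA
  rw [← Finset.sum_add_distrib]
  refine Finset.sum_congr rfl fun u _ => ?_
  ring

lemma AA_sub (G G' : ZMod n × ZMod n → ℝ) (x : ZMod N × ZMod N) :
    AA l r (fun u => G u - G' u) x = AA l r G x - AA l r G' x := by
  unfold AA
  rw [← Finset.sum_sub_distrib]
  refine Finset.sum_congr rfl fun u _ => ?_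
  ring

lemma AA_smul (c : ℝ) (G : ZMod n × ZMod n → ℝ) (x : ZMod N × ZMod N) :
    AA l r (fun u => c * G u) x = c * AA l r G x := by
  unfold AA
  rw [Finset.mul_sum]
  refine Finset.sum_congr rfl fun u _ => ?_
  ring

lemma AA_sum {ι : Type*} (s : Finset ι) (G : ι → ZMod n × ZMod n → ℝ) (x : ZMod N × ZMod N) :
    AA l r (fun u => ∑ i ∈ s, G i u) x = ∑ i ∈ s, AA l r (G i) x := by
  unfold AA
  rw [Finset.sum_comm]
  refine Finset.sum_congr rfl fun u _ => ?_
  rw [Finset.sum_mul]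

lemma AA_mono {G G' : ZMod n × ZMod n → ℝ} (h : ∀ u, G u ≤ G' u) (x : ZMod N × ZMod N) :
    AA l r G x ≤ AA l r G' x := by
  unfold AA
  exact Finset.sum_le_sum fun u _ => mul_le_mul_of_nonneg_right (h u) (phi_nonneg u x)

/-- the adjoint -/
lemma AA_adj (G : ZMod n × ZMod n → ℝ) (v : ZMod N × ZMod N → ℝ) :
    ∑ x, AA l r G x * v x = ∑ u, G u * ∑ x, phi l r u x * v x := by
  unfold AA
  simp only [Finset.sum_mul, Finset.mul_sum]
  rw [Finset.sum_comm]
  refine Finset.sum_congr rfl fun u _ => Finset.sum_congr rfl fun x _ => ?_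
  ring

/-- total mass -/
lemma sum_AA (hN : N = n * l) (hr : 2 * r < l) (G : ZMod n × ZMod n → ℝ) :
    ∑ x : ZMod N × ZMod N, AA l r G x = (l : ℝ) ^ 2 * ∑ u, G u := by
  have h := AA_adj (l := l) (r := r) (N := N) G (fun _ => 1)
  simp only [mul_one, sum_phi_x hN hr] at h
  rw [h, ← Finset.sum_mul]
  ring

lemma AA_pow_le (p : ℕ) (G : ZMod n × ZMod n → ℝ) (x : ZMod N × ZMod N) :
    |AA l r G x| ^ p ≤ AA l r (fun u => |G u| ^ p) x := by
  rw [AA_eq, AA_eq]
  refine (A1_pow_le p _ _).trans (A1_mono _ fun q => ?_)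
  exact A1_pow_le p _ _

lemma sum_pow_le (hN : N = n * l) (hr : 2 * r < l) (p : ℕ) (G : ZMod n × ZMod n → ℝ) :
    ∑ x : ZMod N × ZMod N, |AA l r G x| ^ p ≤ (l : ℝ) ^ 2 * ∑ u, |G u| ^ p := by
  rw [← sum_AA hN hr]
  exact Finset.sum_le_sum fun x _ => AA_pow_le p G x

lemma sq_le (hN : N = n * l) (hr : 2 * r < l) (G : ZMod n × ZMod n → ℝ) :
    ∑ x : ZMod N × ZMod N, AA l r G x ^ 2 ≤ (l : ℝ) ^ 2 * ∑ u, G u ^ 2 := by
  have := sum_pow_le (r := r) hN hr 2 G
  simpa only [sq_abs] using this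

/-! ### gradients -/

lemma AA_step1 (hN : N = n * l) (hr : 2 * r < l) (G : ZMod n × ZMod n → ℝ)
    (x : ZMod N × ZMod N) :
    AA l r G (x + (1, 0)) - AA l r G x = (th l r (rr l x.1 + 1) - th l r (rr l x.1)) *
      A1 l r (fun q2 => G (qq l x.1 + 1, q2) - G (qq l x.1, q2)) x.2 := by
  rw [AA_eq, AA_eq, Prod.fst_add, Prod.snd_add]
  simp only [add_zero]
  rw [A1_step hN hr, A1_sub]

lemma AA_step2 (hN : N = n * l) (hr : 2 * r < l) (G : ZMod n × ZMod n → ℝ)
    (x : ZMod N × ZMod N) :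
    AA l r G (x + (0, 1)) - AA l r G x = (th l r (rr l x.2 + 1) - th l r (rr l x.2)) *
      A1 l r (fun q1 => G (q1, qq l x.2 + 1) - G (q1, qq l x.2)) x.1 := by
  rw [AA_eq', AA_eq', Prod.fst_add, Prod.snd_add]
  simp only [add_zero]
  rw [A1_step hN hr, A1_sub]

theorem pow_grad1 (hN : N = n * l) (hr : 2 * r < l) (p : ℕ) (hp : 1 ≤ p)
    (G : ZMod n × ZMod n → ℝ) :
    ∑ x : ZMod N × ZMod N, |AA l r G (x + (1, 0)) - AA l r G x| ^ p ≤
      (l : ℝ) / ((l : ℝ) - 2 * r) ^ (p - 1) * ∑ u, |G (u + (1, 0)) - G u| ^ p := by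
  have hl := l_pos hr
  have h1 : ∀ x : ZMod N × ZMod N, |AA l r G (x + (1, 0)) - AA l r G x| ^ p ≤
      |th l r (rr l x.1 + 1) - th l r (rr l x.1)| ^ p *
        A1 l r (fun q2 => |G (qq l x.1 + 1, q2) - G (qq l x.1, q2)| ^ p) x.2 := by
    intro x
    rw [AA_step1 hN hr, abs_mul, mul_pow]
    exact mul_le_mul_of_nonneg_left (A1_pow_le p _ _) (by positivity)
  refine (Finset.sum_le_sum fun x _ => h1 x).trans ?_
  rw [Fintype.sum_prod_type]
  simp only [← Finset.mul_sum, A1_sum hN hr]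
  have h2 := sum_qr (N := N) hN hl (fun (q : ZMod n) k => |th l r (k + 1) - th l r k| ^ p *
    ((l : ℝ) * ∑ q2 : ZMod n, |G (q + 1, q2) - G (q, q2)| ^ p))
  rw [h2, Fintype.sum_prod_type, Finset.mul_sum]
  refine Finset.sum_le_sum fun q _ => ?_
  rw [← Finset.sum_mul]
  have h3 := th_pow_sum (l := l) (r := r) hr p hp
  have h4 : 0 ≤ (l : ℝ) * ∑ q2 : ZMod n, |G (q + 1, q2) - G (q, q2)| ^ p := by positivity
  refine (mul_le_mul_of_nonneg_right h3 h4).trans (le_of_eq ?_)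
  have h5 : ∀ q2 : ZMod n, G ((q, q2) + (1, 0)) = G (q + 1, q2) := by
    intro q2
    congr 1
    ext <;> simp
  simp only [h5]
  ring

theorem pow_grad2 (hN : N = n * l) (hr : 2 * r < l) (p : ℕ) (hp : 1 ≤ p)
    (G : ZMod n × ZMod n → ℝ) :
    ∑ x : ZMod N × ZMod N, |AA l r G (x + (0, 1)) - AA l r G x| ^ p ≤
      (l : ℝ) / ((l : ℝ) - 2 * r) ^ (p - 1) * ∑ u, |G (u + (0, 1)) - G u| ^ p := by
  have hl := l_pos hr
  have h1 : ∀ x : ZMod N × ZMod N, |AA l r G (x + (0, 1)) - AA l r G x| ^ p ≤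
      |th l r (rr l x.2 + 1) - th l r (rr l x.2)| ^ p *
        A1 l r (fun q1 => |G (q1, qq l x.2 + 1) - G (q1, qq l x.2)| ^ p) x.1 := by
    intro x
    rw [AA_step2 hN hr, abs_mul, mul_pow]
    exact mul_le_mul_of_nonneg_left (A1_pow_le p _ _) (by positivity)
  refine (Finset.sum_le_sum fun x _ => h1 x).trans ?_
  rw [Fintype.sum_prod_type_right]
  simp only [← Finset.mul_sum, A1_sum hN hr]
  have h2 := sum_qr (N := N) hN hl (fun (q : ZMod n) k => |th l r (k + 1) - th l r k| ^ p *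
    ((l : ℝ) * ∑ q1 : ZMod n, |G (q1, q + 1) - G (q1, q)| ^ p))
  rw [h2, Fintype.sum_prod_type_right, Finset.mul_sum]
  refine Finset.sum_le_sum fun q _ => ?_
  rw [← Finset.sum_mul]
  have h3 := th_pow_sum (l := l) (r := r) hr p hp
  have h4 : 0 ≤ (l : ℝ) * ∑ q1 : ZMod n, |G (q1, q + 1) - G (q1, q)| ^ p := by positivity
  refine (mul_le_mul_of_nonneg_right h3 h4).trans (le_of_eq ?_)
  have h5 : ∀ q1 : ZMod n, G ((q1, q) + (0, 1)) = G (q1, q + 1) := by
    intro q1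
    congr 1
    ext <;> simp
  simp only [h5]
  ring

/-- the energy, with the sharp factor `l / (l - 2 r)` -/
theorem energy_le (hN : N = n * l) (hr : 2 * r < l) (G : ZMod n × ZMod n → ℝ) :
    ∑ x : ZMod N × ZMod N, ((AA l r G (x + (1, 0)) - AA l r G x) ^ 2 +
      (AA l r G (x + (0, 1)) - AA l r G x) ^ 2) ≤
      (l : ℝ) / ((l : ℝ) - 2 * r) *
        ∑ u, ((G (u + (1, 0)) - G u) ^ 2 + (G (u + (0, 1)) - G u) ^ 2) := by
  have h1 := pow_grad1 (N := N) (r := r) hN hr 2 (by norm_num) G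
  have h2 := pow_grad2 (N := N) (r := r) hN hr 2 (by norm_num) G
  simp only [sq_abs, Nat.add_one_sub_one, pow_one] at h1 h2
  rw [Finset.sum_add_distrib, Finset.sum_add_distrib, mul_add]
  exact add_le_add h1 h2

/-! ### local forms -/

lemma A1_mem {a b : ℝ} (g : ZMod n → ℝ) (x : ZMod N) (h1 : a ≤ g (qq l x) ∧ g (qq l x) ≤ b)
    (h2 : a ≤ g (qq l x + 1) ∧ g (qq l x + 1) ≤ b) : a ≤ A1 l r g x ∧ A1 l r g x ≤ b := by
  unfold A1
  have h3 := th_nonneg l r (rr l x)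
  have h4 := th_le_one l r (rr l x)
  constructor <;> nlinarith [h1.1, h1.2, h2.1, h2.2, mul_nonneg h3 (sub_nonneg.2 h2.1),
    mul_nonneg h3 (sub_nonneg.2 h2.2), mul_nonneg (sub_nonneg.2 h4) (sub_nonneg.2 h1.1),
    mul_nonneg (sub_nonneg.2 h4) (sub_nonneg.2 h1.2)]

/-- the four corners of the coarse cell of `x` -/
def cor (l : ℕ) (x : ZMod N × ZMod N) : Finset (ZMod n × ZMod n) :=
  ({qq l x.1, qq l x.1 + 1} : Finset (ZMod n)) ×ˢ ({qq l x.2, qq l x.2 + 1} : Finset (ZMod n))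

lemma mem_cor {x : ZMod N × ZMod N} {u : ZMod n × ZMod n} :
    u ∈ cor l x ↔ (u.1 = qq l x.1 ∨ u.1 = qq l x.1 + 1) ∧ (u.2 = qq l x.2 ∨ u.2 = qq l x.2 + 1) := by
  unfold cor
  simp [Finset.mem_product]

theorem AA_mem {a b : ℝ} (G : ZMod n × ZMod n → ℝ) (x : ZMod N × ZMod N)
    (h : ∀ u ∈ cor l x, a ≤ G u ∧ G u ≤ b) : a ≤ AA l r G x ∧ AA l r G x ≤ b := by
  rw [AA_eq]
  refine A1_mem _ _ (A1_mem _ _ ?_ ?_) (A1_mem _ _ ?_ ?_)
  · exact h (qq l x.1, qq l x.2) (mem_cor.2 ⟨Or.inl rfl, Or.inl rfl⟩)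
  · exact h (qq l x.1, qq l x.2 + 1) (mem_cor.2 ⟨Or.inl rfl, Or.inr rfl⟩)
  · exact h (qq l x.1 + 1, qq l x.2) (mem_cor.2 ⟨Or.inr rfl, Or.inl rfl⟩)
  · exact h (qq l x.1 + 1, qq l x.2 + 1) (mem_cor.2 ⟨Or.inr rfl, Or.inr rfl⟩)

theorem AA_eq_of_corners {c : ℝ} (G : ZMod n × ZMod n → ℝ) (x : ZMod N × ZMod N)
    (h : ∀ u ∈ cor l x, G u = c) : AA l r G x = c := by
  have := AA_mem (l := l) (r := r) (a := c) (b := c) G x (fun u hu => ⟨(h u hu).ge, (h u hu).le⟩)
  exact le_antisymm this.2 this.1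

lemma phi_eq_zero {u : ZMod n × ZMod n} {x : ZMod N × ZMod N} (h : u ∉ cor l x) :
    phi l r u x = 0 := by
  have h1 : AA l r (Pi.single u 1) x = phi l r u x := by
    unfold AA
    rw [Finset.sum_eq_single u]
    · rw [Pi.single_eq_same, one_mul]
    · intro b _ hb
      rw [Pi.single_eq_of_ne hb, zero_mul]
    · intro h'
      exact absurd (Finset.mem_univ _) h'
  rw [← h1]
  refine AA_eq_of_corners _ _ fun v hv => ?_
  rw [Pi.single_eq_of_ne]
  rintro rfl
  exact h hv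

theorem nn_le1 (hN : N = n * l) (hr : 2 * r < l) {M : ℝ} (G : ZMod n × ZMod n → ℝ)
    (x : ZMod N × ZMod N)
    (h : ∀ q2 ∈ ({qq l x.2, qq l x.2 + 1} : Finset (ZMod n)),
      |G (qq l x.1 + 1, q2) - G (qq l x.1, q2)| ≤ M) :
    |AA l r G (x + (1, 0)) - AA l r G x| ≤ M / ((l : ℝ) - 2 * r) := by
  rw [AA_step1 hN hr, abs_mul, abs_of_nonneg (th_step_nonneg hr _)]
  have h1 := th_step_le (l := l) (r := r) hr (rr l x.1)
  have h2 := ramp_pos hr
  have h3 : |A1 l r (fun q2 => G (qq l x.1 + 1, q2) - G (qq l x.1, q2)) x.2| ≤ M := by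
    rw [abs_le]
    refine A1_mem _ _ ?_ ?_
    · exact abs_le.1 (h _ (by simp))
    · exact abs_le.1 (h _ (by simp))
  calc _ ≤ 1 / ((l : ℝ) - 2 * r) * M := mul_le_mul h1 h3 (abs_nonneg _) (by positivity)
    _ = _ := by ring

theorem nn_le2 (hN : N = n * l) (hr : 2 * r < l) {M : ℝ} (G : ZMod n × ZMod n → ℝ)
    (x : ZMod N × ZMod N)
    (h : ∀ q1 ∈ ({qq l x.1, qq l x.1 + 1} : Finset (ZMod n)),
      |G (q1, qq l x.2 + 1) - G (q1, qq l x.2)| ≤ M) :
    |AA l r G (x + (0, 1)) - AA l r G x| ≤ M / ((l : ℝ) - 2 * r) := by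
  rw [AA_step2 hN hr, abs_mul, abs_of_nonneg (th_step_nonneg hr _)]
  have h1 := th_step_le (l := l) (r := r) hr (rr l x.2)
  have h2 := ramp_pos hr
  have h3 : |A1 l r (fun q1 => G (q1, qq l x.2 + 1) - G (q1, qq l x.2)) x.1| ≤ M := by
    rw [abs_le]
    refine A1_mem _ _ ?_ ?_
    · exact abs_le.1 (h _ (by simp))
    · exact abs_le.1 (h _ (by simp))
  calc _ ≤ 1 / ((l : ℝ) - 2 * r) * M := mul_le_mul h1 h3 (abs_nonneg _) (by positivity)
    _ = _ := by ring

/-! ### plateaus -/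

/-- coarse node in two dimensions -/
def node2 (N : ℕ) {n : ℕ} (l : ℕ) (u : ZMod n × ZMod n) : ZMod N × ZMod N :=
  (node N l u.1, node N l u.2)

theorem AA_node (hN : N = n * l) (hr : 2 * r < l) (G : ZMod n × ZMod n → ℝ)
    (u : ZMod n × ZMod n) {k : ℤ × ℤ} (h1 : |k.1| ≤ r) (h2 : |k.2| ≤ r) :
    AA l r G (node2 N l u + ((k.1 : ZMod N), (k.2 : ZMod N))) = G u := by
  rw [AA_eq]
  simp only [node2, Prod.fst_add, Prod.snd_add]
  rw [A1_node hN hr _ _ h1, A1_node hN hr _ _ h2]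

theorem phi_node (hN : N = n * l) (hr : 2 * r < l) (u : ZMod n × ZMod n) {k : ℤ × ℤ}
    (h1 : |k.1| ≤ r) (h2 : |k.2| ≤ r) :
    phi l r u (node2 N l u + ((k.1 : ZMod N), (k.2 : ZMod N))) = 1 := by
  unfold phi phi1
  simp only [node2, Prod.fst_add, Prod.snd_add]
  rw [A1_node hN hr _ _ h1, A1_node hN hr _ _ h2]
  simp

/-- box of integer vectors -/
def box (r : ℕ) : Finset (ℤ × ℤ) := Finset.Icc (-(r : ℤ)) r ×ˢ Finset.Icc (-(r : ℤ)) r

lemma mem_box {r : ℕ} {k : ℤ × ℤ} : k ∈ box r ↔ |k.1| ≤ r ∧ |k.2| ≤ r := by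
  unfold box
  rw [Finset.mem_product, Finset.mem_Icc, Finset.mem_Icc, abs_le, abs_le]

lemma card_box (r : ℕ) : (box r).card = (2 * r + 1) ^ 2 := by
  unfold box
  rw [Finset.card_product, Int.card_Icc]
  have : ((r : ℤ) + 1 - -(r : ℤ)).toNat = 2 * r + 1 := by omega
  rw [this]
  ring

/-- the plateau of `u` -/
def plat (N : ℕ) {n : ℕ} (l r : ℕ) (u : ZMod n × ZMod n) : Finset (ZMod N × ZMod N) :=
  (box r).image fun k => node2 N l u + ((k.1 : ZMod N), (k.2 : ZMod N))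

lemma cast_inj_of {a b : ℤ} (ha : |a| ≤ r) (hb : |b| ≤ r) (hN : 2 * r < N)
    (h : (a : ZMod N) = (b : ZMod N)) : a = b := by
  rw [ZMod.intCast_eq_intCast_iff_dvd_sub] at h
  rw [abs_le] at ha hb
  obtain ⟨c, hc⟩ := h
  have h1 : c = 0 := by
    by_contra h2
    rcases lt_or_gt_of_ne h2 with h3 | h3
    · have : (N : ℤ) * c ≤ (N : ℤ) * (-1) :=
        mul_le_mul_of_nonneg_left (by omega) (by positivity)
      omega
    · have : (N : ℤ) * 1 ≤ (N : ℤ) * c :=
        mul_le_mul_of_nonneg_left (by omega) (by positivity)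
      omega
  rw [h1, mul_zero] at hc
  omega

lemma inj_plat (hN : 2 * r < N) (u : ZMod n × ZMod n) :
    Set.InjOn (fun k : ℤ × ℤ => node2 N l u + ((k.1 : ZMod N), (k.2 : ZMod N))) (box r) := by
  intro k hk k' hk' h
  rw [Finset.mem_coe, mem_box] at hk hk'
  have h1 := add_left_cancel h
  rw [Prod.mk.injEq] at h1
  exact Prod.ext (cast_inj_of hk.1 hk'.1 hN h1.1) (cast_inj_of hk.2 hk'.2 hN h1.2)

lemma l_le_N (hN : N = n * l) : l ≤ N := by
  have : 0 < n := Nat.pos_of_ne_zero (NeZero.ne n)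
  rw [hN]
  exact Nat.le_mul_of_pos_left l this

lemma card_plat (hN : N = n * l) (hr : 2 * r < l) (u : ZMod n × ZMod n) :
    (plat N l r u).card = (2 * r + 1) ^ 2 := by
  unfold plat
  rw [Finset.card_image_of_injOn (inj_plat (lt_of_lt_of_le hr (l_le_N hN)) u), card_box]

lemma sum_plat (hN : N = n * l) (hr : 2 * r < l) (u : ZMod n × ZMod n)
    {M : Type*} [AddCommMonoid M] (F : ZMod N × ZMod N → M) :
    ∑ x ∈ plat N l r u, F x =
      ∑ k ∈ box r, F (node2 N l u + ((k.1 : ZMod N), (k.2 : ZMod N))) := by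
  unfold plat
  exact Finset.sum_image (inj_plat (lt_of_lt_of_le hr (l_le_N hN)) u)

lemma phi_plat (hN : N = n * l) (hr : 2 * r < l) (u : ZMod n × ZMod n) {x : ZMod N × ZMod N}
    (hx : x ∈ plat N l r u) : phi l r u x = 1 := by
  unfold plat at hx
  rw [Finset.mem_image] at hx
  obtain ⟨k, hk, rfl⟩ := hx
  rw [mem_box] at hk
  exact phi_node hN hr u hk.1 hk.2

lemma AA_plat (hN : N = n * l) (hr : 2 * r < l) (G : ZMod n × ZMod n → ℝ)
    (u : ZMod n × ZMod n) {x : ZMod N × ZMod N} (hx : x ∈ plat N l r u) : AA l r G x = G u := by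
  unfold plat at hx
  rw [Finset.mem_image] at hx
  obtain ⟨k, hk, rfl⟩ := hx
  rw [mem_box] at hk
  exact AA_node hN hr G u hk.1 hk.2

lemma node2_step1 (hN : N = n * l) (u : ZMod n × ZMod n) :
    node2 N l (u + (1, 0)) = node2 N l u + ((l : ZMod N), 0) := by
  unfold node2
  ext <;> simp [node_succ hN]

lemma node2_step2 (hN : N = n * l) (u : ZMod n × ZMod n) :
    node2 N l (u + (0, 1)) = node2 N l u + (0, (l : ZMod N)) := by
  unfold node2
  ext <;> simp [node_succ hN]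

/-! ### Lipschitz from nearest neighbour increments -/

lemma nat_steps {f : ZMod N × ZMod N → ℝ} {e : ZMod N × ZMod N} {c : ℝ}
    (h : ∀ x, |f (x + e) - f x| ≤ c) (k : ℕ) (x : ZMod N × ZMod N) :
    |f (x + k • e) - f x| ≤ c * k := by
  induction k with
  | zero => simp
  | succ k ih =>
    have h1 := h (x + k • e)
    have h2 : x + (k + 1) • e = x + k • e + e := by rw [succ_nsmul, add_assoc]
    rw [h2]
    have h3 : f (x + k • e + e) - f x = (f (x + k • e + e) - f (x + k • e)) +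
        (f (x + k • e) - f x) := by ring
    rw [h3]
    refine (abs_add_le _ _).trans ?_
    push_cast
    linarith

lemma int_steps {f : ZMod N × ZMod N → ℝ} {e : ZMod N × ZMod N} {c : ℝ}
    (h : ∀ x, |f (x + e) - f x| ≤ c) (k : ℤ) (x : ZMod N × ZMod N) :
    |f (x + k • e) - f x| ≤ c * |(k : ℝ)| := by
  rcases Int.eq_nat_or_neg k with ⟨j, rfl | rfl⟩
  · have := nat_steps h j x
    rw [natCast_zsmul]
    simpa using this
  · have h1 := nat_steps h j (x + (-(j : ℤ)) • e)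
    have h2 : x + (-(j : ℤ)) • e + j • e = x := by
      rw [neg_smul, natCast_zsmul, add_assoc, neg_add_cancel, add_zero]
    rw [h2, abs_sub_comm] at h1
    simpa using h1

/-- the `ℓ¹` distance of the torus -/
def d1 (x y : ZMod N × ZMod N) : ℝ :=
  |((x.1 - y.1).valMinAbs : ℝ)| + |((x.2 - y.2).valMinAbs : ℝ)|

theorem lip_of_nn {f : ZMod N × ZMod N → ℝ} {c : ℝ}
    (h1 : ∀ x, |f (x + (1, 0)) - f x| ≤ c) (h2 : ∀ x, |f (x + (0, 1)) - f x| ≤ c)
    (x y : ZMod N × ZMod N) : |f x - f y| ≤ c * d1 x y := by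
  set a := (x.1 - y.1).valMinAbs with ha
  set b := (x.2 - y.2).valMinAbs with hb
  have hx : x = y + a • (1, 0) + b • (0, 1) := by
    ext
    · simp [ha]
    · simp [hb]
  have h3 := int_steps h2 b (y + a • (1, 0))
  rw [← hx] at h3
  have h4 := int_steps h1 a y
  have h5 : f x - f y = (f x - f (y + a • (1, 0))) + (f (y + a • (1, 0)) - f y) := by ring
  rw [h5]
  refine (abs_add_le _ _).trans ?_
  unfold d1
  rw [← ha, ← hb, mul_add]
  linarith

/-- the coarse field is Lipschitz -/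
theorem AA_lip (hN : N = n * l) (hr : 2 * r < l) {M : ℝ} (G : ZMod n × ZMod n → ℝ)
    (h1 : ∀ u, |G (u + (1, 0)) - G u| ≤ M) (h2 : ∀ u, |G (u + (0, 1)) - G u| ≤ M)
    (x y : ZMod N × ZMod N) : |AA l r G x - AA l r G y| ≤ M / ((l : ℝ) - 2 * r) * d1 x y := by
  refine lip_of_nn (fun x => nn_le1 hN hr G x fun q2 _ => ?_)
    (fun x => nn_le2 hN hr G x fun q1 _ => ?_) x y
  · have := h1 (qq l x.1, q2)
    simpa using this
  · have := h2 (q1, qq l x.2)
    simpa using this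

end

end Vale.Agent.P159.TM.H365
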