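import Vale.Agent.P159.TM.H365.Phi
import Vale.Agent.P159.TM.H859.LogC

/-!
# P159, T1, row PHI, second part : the coarse field and the logarithmic cut-off
-/

set_option linter.unusedSectionVars false
set_option linter.unusedVariables false

open Finset

namespace Vale.Agent.P159.TM.H365

open Vale.Agent.P159.TM.H859

noncomputable section

variable {N n l r : ℕ} [NeZero N] [NeZero n]

lemma node_intCast (hN : N = n * l) (z : ℤ) :
    node N l ((z : ℤ) : ZMod n) = (((l : ℤ) * z : ℤ) : ZMod N) := by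
  unfold node
  have h1 : (((z : ZMod n).val : ℕ) : ℤ) = z % (n : ℤ) := ZMod.val_intCast z
  have h2 : ((l * (z : ZMod n).val : ℕ) : ZMod N) =
      (((l : ℤ) * (((z : ZMod n).val : ℕ) : ℤ) : ℤ) : ZMod N) := by
    push_cast
    rfl
  rw [h2, h1, ZMod.intCast_eq_intCast_iff_dvd_sub]
  refine ⟨z / n, ?_⟩
  have h3 := Int.emod_add_mul_ediv z (n : ℤ)
  have h4 : ((N : ℕ) : ℤ) = (n : ℤ) * l := by rw [hN]; push_cast; rfl
  rw [h4]
  linear_combination (l : ℤ) * (-h3)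

lemma node_sub (hN : N = n * l) (a b : ZMod n) : node N l (a - b) = node N l a - node N l b := by
  have h1 : a - b = ((a.valMinAbs - b.valMinAbs : ℤ) : ZMod n) := by
    simp
  have h2 : node N l a = (((l : ℤ) * a.valMinAbs : ℤ) : ZMod N) := by
    rw [← node_intCast hN, ZMod.coe_valMinAbs]
  have h3 : node N l b = (((l : ℤ) * b.valMinAbs : ℤ) : ZMod N) := by
    rw [← node_intCast hN, ZMod.coe_valMinAbs]
  rw [h1, node_intCast hN, h2, h3]
  push_cast
  ring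

lemma valMinAbs_node (hN : N = n * l) (hl : 0 < l) (a : ZMod n) :
    (node N l a).valMinAbs = l * a.valMinAbs := by
  rw [ZMod.valMinAbs_spec]
  refine ⟨?_, ?_⟩
  · rw [← node_intCast hN, ZMod.coe_valMinAbs]
  · have h := ((ZMod.valMinAbs_spec a a.valMinAbs).1 rfl).2
    rw [Set.mem_Ioc] at h ⊢
    have h4 : ((N : ℕ) : ℤ) = (n : ℤ) * l := by rw [hN]; push_cast; rfl
    have hl' : (0 : ℤ) < l := by exact_mod_cast hl
    rw [h4]
    constructor
    · nlinarith [mul_lt_mul_of_pos_left h.1 hl']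
    · nlinarith [mul_le_mul_of_nonneg_left h.2 hl'.le]

lemma tn_node2 (hN : N = n * l) (hl : 0 < l) (a b : ZMod n × ZMod n) :
    tn (node2 N l a - node2 N l b) = l * tn (a - b) := by
  unfold tn rep nz node2
  simp only [Prod.fst_sub, Prod.snd_sub]
  rw [← node_sub hN, ← node_sub hN, valMinAbs_node hN hl, valMinAbs_node hN hl]
  have h1 : (0 : ℝ) ≤ l := by positivity
  rw [← Real.sqrt_sq h1, ← Real.sqrt_mul (by positivity)]
  congr 1
  push_cast
  ring

lemma cor_int (hN : N = n * l) (hl : 0 < l) {a : ZMod N} {q : ZMod n}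
    (h : q = qq l a ∨ q = qq l a + 1) : ∃ z : ℤ, (z : ZMod N) = a - node N l q ∧ |z| ≤ l := by
  have h0 := rr_lt hl a
  have h1 : a = node N l (qq (n := n) l a) + ((rr l a : ℕ) : ZMod N) := by
    rw [node_add_nat, pt_qq hN hl]
  rcases h with h | h
  · refine ⟨rr l a, ?_, ?_⟩
    · rw [h]
      conv_rhs => rw [h1]
      push_cast
      have h2 : qq (n := n) l (node N l (qq (n := n) l a) + ((rr l a : ℕ) : ZMod N)) = qq l a := by
        rw [← h1]
      rw [h2]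
      ring
    · rw [abs_le]
      constructor <;> omega
  · refine ⟨(rr l a : ℤ) - l, ?_, ?_⟩
    · rw [h, node_succ hN]
      have h3 : a - (node N l (qq (n := n) l a) + (l : ZMod N)) =
          (a - node N l (qq (n := n) l a)) - (l : ZMod N) := by ring
      have h4 : a - node N l (qq (n := n) l a) = ((rr l a : ℕ) : ZMod N) := by
        rw [sub_eq_iff_eq_add, add_comm]
        exact h1
      rw [h3, h4]
      push_cast
      rfl
    · rw [abs_le]
      constructor <;> omega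

lemma tn_cor (hN : N = n * l) (hl : 0 < l) {x : ZMod N × ZMod N} {u : ZMod n × ZMod n}
    (h : u ∈ cor l x) : tn (x - node2 N l u) ≤ Real.sqrt 2 * l := by
  rw [mem_cor] at h
  obtain ⟨z1, h1, h1'⟩ := cor_int hN hl h.1
  obtain ⟨z2, h2, h2'⟩ := cor_int hN hl h.2
  refine (tn_le_nz (z := (z1, z2)) ?_ ?_).trans ?_
  · rw [h1]
    rfl
  · rw [h2]
    rfl
  · unfold nz
    have h3 : (0 : ℝ) ≤ l := by positivity
    have h4 : |(z1 : ℝ)| ≤ l := by exact_mod_cast h1'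
    have h5 : |(z2 : ℝ)| ≤ l := by exact_mod_cast h2'
    rw [← Real.sqrt_sq h3, ← Real.sqrt_mul (by norm_num)]
    refine Real.sqrt_le_sqrt ?_
    have h6 : (z1 : ℝ) ^ 2 ≤ (l : ℝ) ^ 2 := by
      rw [← sq_abs]
      exact pow_le_pow_left₀ (abs_nonneg _) h4 2
    have h7 : (z2 : ℝ) ^ 2 ≤ (l : ℝ) ^ 2 := by
      rw [← sq_abs (z2 : ℝ)]
      exact pow_le_pow_left₀ (abs_nonneg _) h5 2
    simp only
    linarith

/-- coarse distance of a corner -/
lemma tn_cor_le (hN : N = n * l) (hl : 0 < l) {x : ZMod N × ZMod N} {u : ZMod n × ZMod n}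
    (h : u ∈ cor l x) (u0 : ZMod n × ZMod n) :
    l * tn (u - u0) ≤ tn (x - node2 N l u0) + Real.sqrt 2 * l ∧
      tn (x - node2 N l u0) - Real.sqrt 2 * l ≤ l * tn (u - u0) := by
  rw [← tn_node2 hN hl]
  have h1 := tn_cor hN hl h
  have h2 : tn (node2 N l u - node2 N l u0) ≤ tn (node2 N l u - x) + tn (x - node2 N l u0) := by
    have := tn_add_le (node2 N l u - x) (x - node2 N l u0)
    rwa [sub_add_sub_cancel] at this
  have h3 : tn (x - node2 N l u0) ≤ tn (x - node2 N l u) + tn (node2 N l u - node2 N l u0) := by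
    have := tn_add_le (x - node2 N l u) (node2 N l u - node2 N l u0)
    rwa [sub_add_sub_cancel] at this
  have h4 : tn (node2 N l u - x) = tn (x - node2 N l u) := by
    rw [← tn_neg, neg_sub]
  constructor <;> linarith

theorem dirE_AA (hN : N = n * l) (hr : 2 * r < l) (G : ZMod n × ZMod n → ℝ) :
    dirE (AA (N := N) l r G) ≤ (l : ℝ) / ((l : ℝ) - 2 * r) * dirE G := by
  unfold dirE
  exact energy_le hN hr G

lemma d1_le_tn (x y : ZMod N × ZMod N) : d1 x y ≤ Real.sqrt 2 * tn (x - y) := by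
  unfold d1 tn rep nz
  simp only [Prod.fst_sub, Prod.snd_sub]
  rw [← Real.sqrt_mul (by norm_num)]
  refine Real.le_sqrt_of_sq_le ?_
  have h1 := sq_abs (((x.1 - y.1).valMinAbs : ℤ) : ℝ)
  have h2 := sq_abs (((x.2 - y.2).valMinAbs : ℤ) : ℝ)
  nlinarith [sq_nonneg (|(((x.1 - y.1).valMinAbs : ℤ) : ℝ)| - |(((x.2 - y.2).valMinAbs : ℤ) : ℝ)|)]

/-- `AA G` is Lipschitz for the Euclidean torus distance -/
theorem AA_lip_tn (hN : N = n * l) (hr : 2 * r < l) {M : ℝ} (hM : 0 ≤ M)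
    (G : ZMod n × ZMod n → ℝ)
    (h1 : ∀ u, |G (u + (1, 0)) - G u| ≤ M) (h2 : ∀ u, |G (u + (0, 1)) - G u| ≤ M)
    (x y : ZMod N × ZMod N) :
    |AA l r G x - AA l r G y| ≤ Real.sqrt 2 * M / ((l : ℝ) - 2 * r) * tn (x - y) := by
  have h3 := ramp_pos hr
  refine (AA_lip hN hr G h1 h2 x y).trans ?_
  refine (mul_le_mul_of_nonneg_left (d1_le_tn x y) (by positivity)).trans (le_of_eq ?_)
  ring

/-- the pulled back logarithmic cut-off around the coarse point `u0` -/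
def psi (l r : ℕ) (u0 : ZMod n × ZMod n) (ρ L : ℝ) : ZMod N × ZMod N → ℝ :=
  AA l r (logCut u0 ρ L)

theorem psi_nonneg (u0 : ZMod n × ZMod n) (ρ L : ℝ) (x : ZMod N × ZMod N) :
    0 ≤ psi l r u0 ρ L x :=
  (AA_mem (a := 0) (b := 1) _ _ fun u _ => ⟨logCut_nonneg _ _ _ _, logCut_le_one _ _ _ _⟩).1

theorem psi_le_one (u0 : ZMod n × ZMod n) (ρ L : ℝ) (x : ZMod N × ZMod N) :
    psi l r u0 ρ L x ≤ 1 :=
  (AA_mem (a := 0) (b := 1) _ _ fun u _ => ⟨logCut_nonneg _ _ _ _, logCut_le_one _ _ _ _⟩).2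

theorem psi_eq_one (hN : N = n * l) (hl : 0 < l) (u0 : ZMod n × ZMod n) {ρ L : ℝ}
    {x : ZMod N × ZMod N} (h : tn (x - node2 N l u0) ≤ (ρ - Real.sqrt 2) * l) :
    psi l r u0 ρ L x = 1 := by
  refine AA_eq_of_corners _ _ fun u hu => ?_
  refine logCut_eq_one ?_
  have h1 := (tn_cor_le hN hl hu u0).1
  have h2 : (0 : ℝ) < l := by exact_mod_cast hl
  have h3 : l * tn (u - u0) ≤ l * ρ := by linarith
  exact le_of_mul_le_mul_left h3 h2

theorem psi_eq_zero (hN : N = n * l) (hl : 0 < l) (u0 : ZMod n × ZMod n) {ρ L : ℝ} (hρ : 0 < ρ)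
    (hL : 1 < L) {x : ZMod N × ZMod N} (h : (L * ρ + Real.sqrt 2) * l ≤ tn (x - node2 N l u0)) :
    psi l r u0 ρ L x = 0 := by
  refine AA_eq_of_corners _ _ fun u hu => ?_
  refine logCut_eq_zero hρ hL ?_
  have h1 := (tn_cor_le hN hl hu u0).2
  have h2 : (0 : ℝ) < l := by exact_mod_cast hl
  have h3 : l * (L * ρ) ≤ l * tn (u - u0) := by linarith
  exact le_of_mul_le_mul_left h3 h2

theorem psi_energy (hN : N = n * l) (hr : 2 * r < l) (u0 : ZMod n × ZMod n) {ρ L : ℝ}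
    (hρ : 10 ≤ ρ) (hL : 2 ≤ L) (hn : 2 * (L * ρ + 1) ≤ n) :
    dirE (psi (N := N) l r u0 ρ L) ≤
      (l : ℝ) / ((l : ℝ) - 2 * r) * ((1 + 68 / ρ) * (2 * Real.pi / Real.log L)) := by
  have h1 := ramp_pos hr
  refine (dirE_AA hN hr _).trans ?_
  exact mul_le_mul_of_nonneg_left (logCut_energy u0 hρ hL hn) (by positivity)

theorem psi_cube (hN : N = n * l) (hr : 2 * r < l) (u0 : ZMod n × ZMod n) {ρ L : ℝ}
    (hρ : 10 ≤ ρ) (hL : 2 ≤ L) (hn : 2 * (L * ρ + 1) ≤ n) :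
    ∑ x : ZMod N × ZMod N, (|psi l r u0 ρ L (x + (1, 0)) - psi l r u0 ρ L x| ^ 3
        + |psi l r u0 ρ L (x + (0, 1)) - psi l r u0 ρ L x| ^ 3) ≤
      (l : ℝ) / ((l : ℝ) - 2 * r) ^ 2 *
        ((1 / (ρ * Real.log L)) * ((1 + 68 / ρ) * (2 * Real.pi / Real.log L))) := by
  have h1 := ramp_pos hr
  have h2 := pow_grad1 (N := N) (r := r) hN hr 3 (by norm_num) (logCut u0 ρ L)
  have h3 := pow_grad2 (N := N) (r := r) hN hr 3 (by norm_num) (logCut u0 ρ L)
  rw [Finset.sum_add_distrib]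
  refine (add_le_add h2 h3).trans ?_
  rw [← mul_add, ← Finset.sum_add_distrib]
  exact mul_le_mul_of_nonneg_left (logCut_cube u0 hρ hL hn) (by positivity)

lemma tn_e1_le (hn : NeZero n) : tn ((1, 0) : ZMod n × ZMod n) ≤ 1 := by
  refine (tn_le_nz (z := (1, 0)) (by simp) (by simp)).trans (le_of_eq ?_)
  simp [nz]

lemma tn_e2_le (hn : NeZero n) : tn ((0, 1) : ZMod n × ZMod n) ≤ 1 := by
  refine (tn_le_nz (z := (0, 1)) (by simp) (by simp)).trans (le_of_eq ?_)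
  simp [nz]

lemma logCut_nn {ρ L : ℝ} (hρ : 0 < ρ) (hL : 1 < L) (u0 u e : ZMod n × ZMod n) (he : tn e ≤ 1) :
    |logCut u0 ρ L (u + e) - logCut u0 ρ L u| ≤ 1 / (ρ * Real.log L) := by
  refine (logCut_lip u0 hρ hL _ _).trans ?_
  have h1 : 0 < Real.log L := Real.log_pos hL
  rw [add_sub_cancel_left]
  gcongr

theorem psi_nn1 (hN : N = n * l) (hr : 2 * r < l) (u0 : ZMod n × ZMod n) {ρ L : ℝ} (hρ : 0 < ρ)
    (hL : 1 < L) (x : ZMod N × ZMod N) :
    |psi l r u0 ρ L (x + (1, 0)) - psi l r u0 ρ L x| ≤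
      1 / (ρ * Real.log L) / ((l : ℝ) - 2 * r) := by
  refine nn_le1 hN hr _ x fun q2 _ => ?_
  have := logCut_nn hρ hL u0 (qq l x.1, q2) (1, 0) (tn_e1_le inferInstance)
  simpa using this

theorem psi_nn2 (hN : N = n * l) (hr : 2 * r < l) (u0 : ZMod n × ZMod n) {ρ L : ℝ} (hρ : 0 < ρ)
    (hL : 1 < L) (x : ZMod N × ZMod N) :
    |psi l r u0 ρ L (x + (0, 1)) - psi l r u0 ρ L x| ≤
      1 / (ρ * Real.log L) / ((l : ℝ) - 2 * r) := by
  refine nn_le2 hN hr _ x fun q1 _ => ?_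
  have := logCut_nn hρ hL u0 (q1, qq l x.2) (0, 1) (tn_e2_le inferInstance)
  simpa using this

theorem psi_lip (hN : N = n * l) (hr : 2 * r < l) (u0 : ZMod n × ZMod n) {ρ L : ℝ} (hρ : 0 < ρ)
    (hL : 1 < L) (x y : ZMod N × ZMod N) :
    |psi l r u0 ρ L x - psi l r u0 ρ L y| ≤
      Real.sqrt 2 / ((ρ * Real.log L) * ((l : ℝ) - 2 * r)) * tn (x - y) := by
  have h1 : 0 < Real.log L := Real.log_pos hL
  have h3 := ramp_pos hr
  have h2 := AA_lip_tn hN hr (M := 1 / (ρ * Real.log L)) (by positivity) (logCut u0 ρ L)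
    (fun u => logCut_nn hρ hL u0 u (1, 0) (tn_e1_le inferInstance))
    (fun u => logCut_nn hρ hL u0 u (0, 1) (tn_e2_le inferInstance)) x y
  refine h2.trans (le_of_eq ?_)
  field_simp

end

end Vale.Agent.P159.TM.H365
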