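import Vale.Agent.P159.TM.H365.Phi

/-!
# P159, T1, row PHI : the straight line flow between adjacent plateaus
-/

set_option linter.unusedSectionVars false
set_option linter.unusedVariables false

open Finset

namespace Vale.Agent.P159.TM.H365

noncomputable section

variable {N n l r : ℕ} [NeZero N] [NeZero n]

/-- telescoping along a straight line -/
lemma tele (h : ZMod N × ZMod N → ℝ) (e x : ZMod N × ZMod N) (j : ℕ) :
    ∑ i ∈ range j, (h (x + i • e + e) - h (x + i • e)) = h (x + j • e) - h x := by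
  induction j with
  | zero => simp
  | succ j ih =>
    rw [Finset.sum_range_succ, ih]
    have : x + (j + 1) • e = x + j • e + e := by rw [succ_nsmul, add_assoc]
    rw [this]
    ring

/-- number of straight segments through `y` -/
def cnt (P : Finset (ZMod N × ZMod N)) (e : ZMod N × ZMod N) (l : ℕ) (y : ZMod N × ZMod N) : ℕ :=
  ((P ×ˢ range l).filter fun p => p.1 + p.2 • e = y).card

lemma sum_cnt (P : Finset (ZMod N × ZMod N)) (e : ZMod N × ZMod N) (l : ℕ)
    (F : ZMod N × ZMod N → ℝ) :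
    ∑ y, (cnt P e l y : ℝ) * F y = ∑ x ∈ P, ∑ j ∈ range l, F (x + j • e) := by
  rw [← Finset.sum_product']
  have h1 : ∑ p ∈ P ×ˢ range l, F (p.1 + p.2 • e) =
      ∑ y : ZMod N × ZMod N, ∑ p ∈ (P ×ˢ range l).filter (fun p => p.1 + p.2 • e = y),
        F (p.1 + p.2 • e) := by
    rw [Finset.sum_fiberwise]
  rw [h1]
  refine Finset.sum_congr rfl fun y _ => ?_
  rw [Finset.sum_congr rfl (fun p hp => by rw [(Finset.mem_filter.1 hp).2] :
    ∀ p ∈ (P ×ˢ range l).filter (fun p => p.1 + p.2 • e = y), F (p.1 + p.2 • e) = F y)]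
  rw [Finset.sum_const, nsmul_eq_mul]
  rfl

/-- each point of the line is hit at most `2 r + 1` times, direction `(1, 0)` -/
lemma cnt_le1 (hN : N = n * l) (hr : 2 * r < l) (u : ZMod n × ZMod n) (y : ZMod N × ZMod N) :
    cnt (plat N l r u) (1, 0) l y ≤ 2 * r + 1 := by
  have hlN := l_le_N (n := n) hN
  unfold cnt
  have h1 : ((plat N l r u ×ˢ range l).filter fun p => p.1 + p.2 • (1, 0) = y).card ≤
      (Finset.Icc (-(r : ℤ)) r).card := by
    refine Finset.card_le_card_of_surjOn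
      (fun k : ℤ => ((node N l u.1 + (k : ZMod N), y.2),
        (y.1 - (node N l u.1 + (k : ZMod N))).val)) ?_
    rintro ⟨x, j⟩ hp
    rw [Finset.mem_coe, Finset.mem_filter, Finset.mem_product] at hp
    obtain ⟨⟨hx, hj⟩, hy⟩ := hp
    unfold plat at hx
    rw [Finset.mem_image] at hx
    obtain ⟨k, hk, hkx⟩ := hx
    simp only at hkx hy hj
    rw [mem_box] at hk
    refine ⟨k.1, ?_, ?_⟩
    · rw [Finset.mem_coe, Finset.mem_Icc]
      exact abs_le.1 hk.1
    · have h2 : x.1 = node N l u.1 + (k.1 : ZMod N) := by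
        rw [← hkx]
        rfl
      have h3 : y.1 = x.1 + (j : ZMod N) := by
        rw [← hy]
        simp
      have h4 : y.2 = x.2 := by
        rw [← hy]
        simp
      have h5 : y.1 - (node N l u.1 + (k.1 : ZMod N)) = (j : ZMod N) := by
        rw [h3, h2]
        ring
      have h6 : ((j : ℕ) : ZMod N).val = j := by
        rw [ZMod.val_natCast, Nat.mod_eq_of_lt]
        exact lt_of_lt_of_le (Finset.mem_range.1 hj) hlN
      simp only
      rw [h5, h6, ← h2, h4]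
  refine h1.trans ?_
  rw [Int.card_Icc]
  omega

lemma cnt_le2 (hN : N = n * l) (hr : 2 * r < l) (u : ZMod n × ZMod n) (y : ZMod N × ZMod N) :
    cnt (plat N l r u) (0, 1) l y ≤ 2 * r + 1 := by
  have hlN := l_le_N (n := n) hN
  unfold cnt
  have h1 : ((plat N l r u ×ˢ range l).filter fun p => p.1 + p.2 • (0, 1) = y).card ≤
      (Finset.Icc (-(r : ℤ)) r).card := by
    refine Finset.card_le_card_of_surjOn
      (fun k : ℤ => ((y.1, node N l u.2 + (k : ZMod N)),
        (y.2 - (node N l u.2 + (k : ZMod N))).val)) ?_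
    rintro ⟨x, j⟩ hp
    rw [Finset.mem_coe, Finset.mem_filter, Finset.mem_product] at hp
    obtain ⟨⟨hx, hj⟩, hy⟩ := hp
    unfold plat at hx
    rw [Finset.mem_image] at hx
    obtain ⟨k, hk, hkx⟩ := hx
    simp only at hkx hy hj
    rw [mem_box] at hk
    refine ⟨k.2, ?_, ?_⟩
    · rw [Finset.mem_coe, Finset.mem_Icc]
      exact abs_le.1 hk.2
    · have h2 : x.2 = node N l u.2 + (k.2 : ZMod N) := by
        rw [← hkx]
        rfl
      have h3 : y.2 = x.2 + (j : ZMod N) := by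
        rw [← hy]
        simp
      have h4 : y.1 = x.1 := by
        rw [← hy]
        simp
      have h5 : y.2 - (node N l u.2 + (k.2 : ZMod N)) = (j : ZMod N) := by
        rw [h3, h2]
        ring
      have h6 : ((j : ℕ) : ZMod N).val = j := by
        rw [ZMod.val_natCast, Nat.mod_eq_of_lt]
        exact lt_of_lt_of_le (Finset.mem_range.1 hj) hlN
      simp only
      rw [h5, h6, ← h2, h4]
  refine h1.trans ?_
  rw [Int.card_Icc]
  omega

lemma sum_plat_shift (hN : N = n * l) (hr : 2 * r < l) (u e' : ZMod n × ZMod n)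
    (e : ZMod N × ZMod N) (he : node2 N l (u + e') = node2 N l u + l • e)
    (h : ZMod N × ZMod N → ℝ) :
    ∑ x ∈ plat N l r (u + e'), h x = ∑ x ∈ plat N l r u, h (x + l • e) := by
  rw [sum_plat hN hr, sum_plat hN hr]
  refine Finset.sum_congr rfl fun k _ => ?_
  rw [he]
  congr 1
  abel

lemma flow_core (hN : N = n * l) (hr : 2 * r < l) (u e' : ZMod n × ZMod n)
    (e : ZMod N × ZMod N) (he : node2 N l (u + e') = node2 N l u + l • e)
    (hc : ∀ y, cnt (plat N l r u) e l y ≤ 2 * r + 1) :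
    ∃ θ : ZMod N × ZMod N → ℝ, (∀ y, 0 ≤ θ y) ∧ (∀ y, θ y ≤ 1 / ((2 * r + 1 : ℕ) : ℝ)) ∧
      ∑ y, θ y = l ∧ ∑ y, θ y ^ 2 ≤ l / ((2 * r + 1 : ℕ) : ℝ) ∧
      ∀ h : ZMod N × ZMod N → ℝ,
        (∑ x ∈ plat N l r (u + e'), h x) / ((2 * r + 1 : ℕ) : ℝ) ^ 2 -
          (∑ x ∈ plat N l r u, h x) / ((2 * r + 1 : ℕ) : ℝ) ^ 2 =
          ∑ y, θ y * (h (y + e) - h y) := by
  set s : ℝ := ((2 * r + 1 : ℕ) : ℝ) with hs
  have hs0 : 0 < s := by rw [hs]; positivity
  have hb : ∀ y, (cnt (plat N l r u) e l y : ℝ) / s ^ 2 ≤ 1 / s := by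
    intro y
    rw [div_le_div_iff₀ (by positivity) hs0]
    have : (cnt (plat N l r u) e l y : ℝ) ≤ s := by
      rw [hs]
      exact_mod_cast hc y
    nlinarith
  have hsum : ∑ y, (cnt (plat N l r u) e l y : ℝ) / s ^ 2 = l := by
    have h1 := sum_cnt (plat N l r u) e l (fun _ => 1)
    simp only [mul_one, Finset.sum_const, Finset.card_range, nsmul_eq_mul] at h1
    rw [← Finset.sum_div, h1, card_plat hN hr]
    rw [hs]
    push_cast
    field_simp
  refine ⟨fun y => (cnt (plat N l r u) e l y : ℝ) / s ^ 2, fun y => by positivity, hb, hsum, ?_, ?_⟩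
  · calc ∑ y, ((cnt (plat N l r u) e l y : ℝ) / s ^ 2) ^ 2
        ≤ ∑ y, (1 / s) * ((cnt (plat N l r u) e l y : ℝ) / s ^ 2) := by
          refine Finset.sum_le_sum fun y _ => ?_
          rw [pow_two]
          exact mul_le_mul_of_nonneg_right (hb y) (by positivity)
      _ = l / s := by
          rw [← Finset.mul_sum, hsum]
          ring
  · intro h
    have h1 : ∑ y, (cnt (plat N l r u) e l y : ℝ) / s ^ 2 * (h (y + e) - h y) =
        (∑ y, (cnt (plat N l r u) e l y : ℝ) * (h (y + e) - h y)) / s ^ 2 := by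
      rw [Finset.sum_div]
      refine Finset.sum_congr rfl fun y _ => ?_
      ring
    rw [h1, sum_cnt (plat N l r u) e l (fun y => h (y + e) - h y)]
    have h2 : ∀ x ∈ plat N l r u, ∑ j ∈ range l, (h (x + j • e + e) - h (x + j • e)) =
        h (x + l • e) - h x := fun x _ => tele h e x l
    rw [Finset.sum_congr rfl h2, Finset.sum_sub_distrib, sum_plat_shift hN hr u e' e he]
    ring

theorem flow1 (hN : N = n * l) (hr : 2 * r < l) (u : ZMod n × ZMod n) :
    ∃ θ : ZMod N × ZMod N → ℝ, (∀ y, 0 ≤ θ y) ∧ (∀ y, θ y ≤ 1 / ((2 * r + 1 : ℕ) : ℝ)) ∧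
      ∑ y, θ y = l ∧ ∑ y, θ y ^ 2 ≤ l / ((2 * r + 1 : ℕ) : ℝ) ∧
      ∀ h : ZMod N × ZMod N → ℝ,
        (∑ x ∈ plat N l r (u + (1, 0)), h x) / ((2 * r + 1 : ℕ) : ℝ) ^ 2 -
          (∑ x ∈ plat N l r u, h x) / ((2 * r + 1 : ℕ) : ℝ) ^ 2 =
          ∑ y, θ y * (h (y + (1, 0)) - h y) := by
  refine flow_core hN hr u (1, 0) (1, 0) ?_ (cnt_le1 hN hr u)
  rw [node2_step1 hN]
  congr 1
  ext <;> simp

theorem flow2 (hN : N = n * l) (hr : 2 * r < l) (u : ZMod n × ZMod n) :
    ∃ θ : ZMod N × ZMod N → ℝ, (∀ y, 0 ≤ θ y) ∧ (∀ y, θ y ≤ 1 / ((2 * r + 1 : ℕ) : ℝ)) ∧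
      ∑ y, θ y = l ∧ ∑ y, θ y ^ 2 ≤ l / ((2 * r + 1 : ℕ) : ℝ) ∧
      ∀ h : ZMod N × ZMod N → ℝ,
        (∑ x ∈ plat N l r (u + (0, 1)), h x) / ((2 * r + 1 : ℕ) : ℝ) ^ 2 -
          (∑ x ∈ plat N l r u, h x) / ((2 * r + 1 : ℕ) : ℝ) ^ 2 =
          ∑ y, θ y * (h (y + (0, 1)) - h y) := by
  refine flow_core hN hr u (0, 1) (0, 1) ?_ (cnt_le2 hN hr u)
  rw [node2_step2 hN]
  congr 1
  ext <;> simp

end

end Vale.Agent.P159.TM.H365
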