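import Vale.Agent.P159.TM.H365.Phi2

/-!
# P159, T1, row PHI, third part : the coarse field as a linear map, continuity, the shells
-/

set_option linter.unusedSectionVars false
set_option linter.unusedVariables false

open Finset

namespace Vale.Agent.P159.TM.H365

open Vale.Agent.P159.TM.H859

noncomputable section

variable {N n l r : ℕ} [NeZero N] [NeZero n]

/-- the coarse field as a linear map -/
def AAL (N : ℕ) {n : ℕ} [NeZero N] [NeZero n] (l r : ℕ) :
    (ZMod n × ZMod n → ℝ) →ₗ[ℝ] (ZMod N × ZMod N → ℝ) where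
  toFun G := AA l r G
  map_add' G G' := by
    funext x
    exact AA_add G G' x
  map_smul' c G := by
    funext x
    exact AA_smul c G x

@[simp] lemma AAL_apply (G : ZMod n × ZMod n → ℝ) : AAL N l r G = AA (N := N) l r G := rfl

lemma continuous_AA : Continuous (fun G : ZMod n × ZMod n → ℝ => AA (N := N) l r G) := by
  unfold AA
  fun_prop

lemma measurable_AA : Measurable (fun G : ZMod n × ZMod n → ℝ => AA (N := N) l r G) :=
  continuous_AA.measurable

lemma AA_add' (G G' : ZMod n × ZMod n → ℝ) : AA (N := N) l r (G + G') = AA l r G + AA l r G' := by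
  funext x
  exact AA_add G G' x

lemma AA_sub' (G G' : ZMod n × ZMod n → ℝ) : AA (N := N) l r (G - G') = AA l r G - AA l r G' := by
  funext x
  exact AA_sub G G' x

lemma AA_smul' (c : ℝ) (G : ZMod n × ZMod n → ℝ) : AA (N := N) l r (c • G) = c • AA l r G := by
  funext x
  exact AA_smul c G x

lemma AA_zero : AA (N := N) l r (0 : ZMod n × ZMod n → ℝ) = 0 := by
  funext x
  exact AA_const 0 x

/-- the squared norm -/
lemma AA_norm_sq (hN : N = n * l) (hr : 2 * r < l) (G : ZMod n × ZMod n → ℝ) :
    ∑ x : ZMod N × ZMod N, AA l r G x ^ 2 ≤ (l : ℝ) ^ 2 * ∑ u, G u ^ 2 := sq_le hN hr G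

/-- average over a plateau -/
lemma avg_plat_AA (hN : N = n * l) (hr : 2 * r < l) (G : ZMod n × ZMod n → ℝ)
    (u : ZMod n × ZMod n) :
    ∑ x ∈ plat N l r u, AA l r G x = ((2 * r + 1 : ℕ) : ℝ) ^ 2 * G u := by
  rw [Finset.sum_congr rfl (fun x hx => AA_plat hN hr G u hx), Finset.sum_const,
    card_plat hN hr, nsmul_eq_mul]
  push_cast
  ring

end

end Vale.Agent.P159.TM.H365
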